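import Mathlib

/-!
The Galois group of `X ^ 5 - 4 X + 2` is not solvable (after Thomas Browning's file in the archive of
Mathlib).
-/

namespace Vale.Agent.N024

open Function Polynomial Polynomial.Gal Ideal

attribute [local instance] splits_ℚ_ℂ

/-- The quintic polynomial `X ^ 5 - 4 X + 2`. -/
noncomputable def Phi (R : Type*) [CommRing R] : R[X] :=
  X ^ 5 - C (4 : R) * X + C (2 : R)

variable {R : Type*} [CommRing R]

theorem map_Phi {S : Type*} [CommRing S] (f : R →+* S) : (Phi R).map f = Phi S := by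
  simp [Phi, map_ofNat]

theorem coeff_zero_Phi : (Phi R).coeff 0 = 2 := by simp [Phi, coeff_X_pow]

theorem aeval_Phi {S : Type*} [CommRing S] [Algebra R S] (x : S) :
    aeval x (Phi R) = x ^ 5 - 4 * x + 2 := by
  simp [Phi, map_ofNat]

variable [Nontrivial R]

theorem degree_Phi : (Phi R).degree = ((5 : ℕ) : WithBot ℕ) := by
  suffices degree (X ^ 5 - C (4 : R) * X) = ((5 : ℕ) : WithBot ℕ) by
    rwa [Phi, degree_add_eq_left_of_degree_lt]
    convert! (degree_C_le (R := R)).trans_lt (WithBot.coe_lt_coe.mpr (show 0 < 5 by simp))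
  rw [degree_sub_eq_left_of_degree_lt] <;> rw [degree_X_pow]
  exact (degree_C_mul_X_le (4 : R)).trans_lt (WithBot.coe_lt_coe.mpr (show 1 < 5 by simp))

theorem natDegree_Phi : (Phi R).natDegree = 5 :=
  natDegree_eq_of_degree_eq_some degree_Phi

theorem monic_Phi : (Phi R).Monic := by
  rw [Monic, Polynomial.leadingCoeff, natDegree_Phi]
  simp [Phi]

theorem irreducible_Phi : Irreducible (Phi ℚ) := by
  rw [← map_Phi (Int.castRingHom ℚ), ← IsPrimitive.Int.irreducible_iff_irreducible_map_cast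
    (Monic.isPrimitive monic_Phi)]
  apply irreducible_of_eisenstein_criterion (P := span {(2 : ℤ)})
  · rw [span_singleton_prime (by norm_num)]
    exact Int.prime_two
  · rw [monic_Phi.leadingCoeff, mem_span_singleton]
    norm_num
  · intro n hn
    rw [mem_span_singleton]
    rw [degree_Phi] at hn
    norm_cast at hn
    interval_cases n <;> simp [Phi, coeff_X, coeff_X_pow]
  · simp only [degree_Phi, ← WithBot.coe_zero]
    decide
  · rw [coeff_zero_Phi, span_singleton_pow, mem_span_singleton]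
    norm_num
  · exact Monic.isPrimitive monic_Phi

attribute [local simp] map_ofNat in
theorem real_roots_Phi_le : Fintype.card ((Phi ℚ).rootSet ℝ) ≤ 3 := by
  rw [← map_Phi (algebraMap ℤ ℚ), Phi, ← one_mul (X ^ 5), ← C_1]
  apply (card_rootSet_le_derivative _).trans
    (Nat.succ_le_succ ((card_rootSet_le_derivative _).trans (Nat.succ_le_succ _)))
  suffices (Polynomial.rootSet (C (20 : ℚ) * X ^ 3) ℝ).Subsingleton by
    norm_num [Fintype.card_le_one_iff_subsingleton, ← mul_assoc] at *
    exact this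
  rw [rootSet_C_mul_X_pow] <;>
  norm_num

theorem real_roots_Phi_ge : 2 ≤ Fintype.card ((Phi ℚ).rootSet ℝ) := by
  have q_ne_zero : Phi ℚ ≠ 0 := monic_Phi.ne_zero
  let f : ℝ → ℝ := fun x : ℝ => aeval x (Phi ℚ)
  have hf : f = fun x : ℝ => x ^ 5 - 4 * x + 2 := funext fun x => aeval_Phi x
  have hc : ∀ s : Set ℝ, ContinuousOn f s := fun s => (Phi ℚ).continuousOn_aeval
  have hf0 : 0 ≤ f 0 := by rw [hf]; norm_num
  have hf1 : f 1 < 0 := by rw [hf]; norm_num
  have hf2 : 0 ≤ f 2 := by rw [hf]; norm_num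
  obtain ⟨x, ⟨-, hx1⟩, hx⟩ := intermediate_value_Ico' zero_le_one (hc _)
    (Set.mem_Ioc.mpr ⟨hf1, hf0⟩)
  obtain ⟨y, ⟨hy1, -⟩, hy⟩ := intermediate_value_Ioc one_le_two (hc _)
    (Set.mem_Ioc.mpr ⟨hf1, hf2⟩)
  have hxy : x ≠ y := (hx1.trans hy1).ne
  have hx' : aeval x (Phi ℚ) = 0 := hx
  have hy' : aeval y (Phi ℚ) = 0 := hy
  have key : ↑({x, y} : Finset ℝ) ⊆ (Phi ℚ).rootSet ℝ := by
    simp [Set.insert_subset, mem_rootSet_of_ne q_ne_zero, hx', hy']
  convert! Fintype.card_le_of_embedding (Set.embeddingOfSubset _ _ key)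
  simp only [Finset.coe_sort_coe, Fintype.card_coe, Finset.card_singleton,
    Finset.card_insert_of_notMem (mt Finset.mem_singleton.mp hxy)]

theorem complex_roots_Phi : Fintype.card ((Phi ℚ).rootSet ℂ) = 5 :=
  (card_rootSet_eq_natDegree irreducible_Phi.separable (IsAlgClosed.splits _)).trans natDegree_Phi

theorem gal_Phi : Bijective (galActionHom (Phi ℚ) ℂ) := by
  apply galActionHom_bijective_of_prime_degree' irreducible_Phi
  · simp only [natDegree_Phi]; decide
  · rw [complex_roots_Phi, Nat.succ_le_succ_iff]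
    exact real_roots_Phi_le.trans (Nat.le_succ 3)
  · simp_rw [complex_roots_Phi, Nat.succ_le_succ_iff]
    exact real_roots_Phi_ge

/-- No root of the quintic is solvable by radicals. -/
theorem not_mem_solvableByRad {E : Type*} [Field E] [CharZero E] (x : E)
    (hx : x ^ 5 - 4 * x + 2 = 0) : x ∉ solvableByRad ℚ E := by
  intro hm
  have h := isSolvable_gal_of_irreducible hm irreducible_Phi (by rw [aeval_Phi, hx])
  refine Equiv.Perm.not_isSolvable _ (le_of_eq ?_)
    (Group.isSolvable_of_surjective gal_Phi.2)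
  rw_mod_cast [Cardinal.mk_fintype, complex_roots_Phi]

end Vale.Agent.N024
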