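import Vale.Agent.N024.Wide
import Vale.Agent.N024.Quintic

/-!
The examples: the condition on roots cannot be dropped, and the class of fields is larger than the
class of solvably closed fields.
-/

namespace Vale.Agent.N024

open Vale.Agent.P024 Vale.Agent.P024.H358 Vale.Agent.P024.H358.Red IntermediateField Polynomial
open scoped Topology

theorem map_mem_solvableByRad {A B : Type*} [Field A] [CharZero A] [Field B] [CharZero B]
    (φ : A →+* B) : ∀ x ∈ solvableByRad ℚ A, φ x ∈ solvableByRad ℚ B := by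
  have h : solvableByRad ℚ A ≤ (solvableByRad ℚ B).comap φ.toRatAlgHom := by
    refine solvableByRad_le fun y n hn hy => ?_
    have hy' : φ (y ^ n) ∈ solvableByRad ℚ B := hy
    rw [map_pow] at hy'
    exact solvableByRad.rad_mem hn hy'
  exact h

/-- A field with `HasQS` has a solvably closed subfield. -/
theorem HasQS.exists_subfield {E : Type*} [Field E] [CharZero E] (h : HasQS E) :
    ∃ S : Subfield E, SolvablyClosed S :=
  ⟨(QS E).toSubfield, h.solvablyClosed⟩

/-- The section of the restriction to the maximal solvable extension. -/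
theorem exists_section (F₂ E₂ : Type*) [Field F₂] [NumberField F₂] [Field E₂] [CharZero E₂]
    [Algebra F₂ E₂] [IsGalois F₂ E₂] (h : HasQS E₂)
    (hgen : ∀ g : E₂ ≃ₐ[F₂] E₂, (∀ x ∈ QS E₂, g x = x) → g = 1) :
    ∃ (F₁ : IntermediateField ℚ (QS E₂)) (_ : NumberField F₁) (_ : IsGalois F₁ (QS E₂))
      (α : (QS E₂ ≃ₐ[F₁] QS E₂) →* (E₂ ≃ₐ[F₂] E₂)), Continuous α ∧ Function.Bijective α := by
  have halg₂ : Algebra.IsAlgebraic ℚ E₂ := Algebra.IsAlgebraic.trans ℚ F₂ E₂
  have hgal := h.isGalois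
  have hopen : IsOpen ((resQ F₂ E₂).range : Set (QS E₂ ≃ₐ[ℚ] QS E₂)) := by
    have := isOpen_range_resQ (MonoidHom.id (E₂ ≃ₐ[F₂] E₂)) continuous_id (by
      rw [MonoidHom.coe_id, Set.range_id]
      exact isOpen_univ)
    rwa [MonoidHom.comp_id, ← MonoidHom.coe_range] at this
  obtain ⟨hfd, hfix⟩ := finiteDimensional_fixedField (resQ F₂ E₂).range hopen
  set F₁ := IntermediateField.fixedField (resQ F₂ E₂).range with hF₁
  have hNF : NumberField F₁ := NumberField.of_module_finite ℚ F₁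
  let ρ : (E₂ ≃ₐ[F₂] E₂) →* (QS E₂ ≃ₐ[F₁] QS E₂) :=
    { toFun := fun g => AlgEquiv.ofRingEquiv (f := (resQ F₂ E₂ g).toRingEquiv) fun r =>
        (IntermediateField.mem_fixedField_iff _ _).1 r.2 _ ⟨g, rfl⟩
      map_one' := by
        ext x
        exact resQ_apply F₂ E₂ 1 x
      map_mul' := fun g g' => by
        ext x
        show ((resQ F₂ E₂ (g * g') x : QS E₂) : E₂) = (resQ F₂ E₂ g (resQ F₂ E₂ g' x) : QS E₂)
        rw [map_mul]
        rfl }
  have hρ : ∀ g x, algebraMap (QS E₂) E₂ (ρ g x) = g (algebraMap (QS E₂) E₂ x) := fun g x =>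
    resQ_apply F₂ E₂ g x
  have hcont : Continuous ρ := continuous_of_res (algebraMap (QS E₂) E₂) ρ hρ
  have hbij : Function.Bijective ρ := by
    constructor
    · rw [injective_iff_map_eq_one]
      intro g hg
      refine hgen g fun x hx => ?_
      have h1 := hρ g ⟨x, hx⟩
      rw [hg] at h1
      exact h1.symm
    · intro s
      have h1 : s.restrictScalars ℚ ∈ (resQ F₂ E₂).range := by
        rw [← hfix, IntermediateField.mem_fixingSubgroup_iff]
        intro x hx
        exact s.commutes ⟨x, hx⟩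
      obtain ⟨g, hg⟩ := h1
      refine ⟨g, ?_⟩
      ext x
      show ((resQ F₂ E₂ g x : QS E₂) : E₂) = s x
      rw [hg]
      rfl
  let e := MulEquiv.ofBijective ρ hbij
  have hsymm : Continuous e.toEquiv.symm :=
    Continuous.continuous_symm_of_equiv_compact_to_t2 (f := e.toEquiv) hcont
  exact ⟨F₁, hNF, inferInstance, e.symm.toMonoidHom, hsymm, e.symm.bijective⟩

section

variable {Ω : Type*} [Field Ω] [CharZero Ω] [IsAlgClosed Ω] {L : Type*} [Field L] [Algebra L Ω]

theorem hasQS_of_le (N : IntermediateField L Ω) [CharZero N]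
    (h : ∀ y ∈ solvableByRad ℚ Ω, y ∈ N) : HasQS N := by
  have hr : ∀ n : ℕ, 0 < n → ∃ z : solvableByRad ℚ Ω, IsPrimitiveRoot z n := by
    intro n hn
    have hnz : NeZero n := ⟨hn.ne'⟩
    have : NeZero ((n : ℕ) : Ω) := ⟨Nat.cast_ne_zero.2 hn.ne'⟩
    obtain ⟨ζ, hζ⟩ := HasEnoughRootsOfUnity.exists_primitiveRoot Ω n
    refine ⟨⟨ζ, solvableByRad.rad_mem hn.ne' (by rw [hζ.pow_eq_one]; exact one_mem _)⟩, ?_⟩
    exact IsPrimitiveRoot.of_map_of_injective (f := algebraMap (solvableByRad ℚ Ω) Ω) hζ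
      (algebraMap (solvableByRad ℚ Ω) Ω).injective
  have hp : ∀ n : ℕ, 0 < n → ∀ x : solvableByRad ℚ Ω, ∃ y : solvableByRad ℚ Ω, y ^ n = x := by
    intro n hn x
    obtain ⟨z, hz⟩ := IsAlgClosed.exists_pow_nat_eq (x : Ω) hn
    exact ⟨⟨z, solvableByRad.rad_mem hn.ne' (by rw [hz]; exact x.2)⟩, Subtype.ext hz⟩
  let ι : solvableByRad ℚ Ω →+* N :=
    (algebraMap (solvableByRad ℚ Ω) Ω).codRestrict N fun x => h x x.2
  intro y hy
  obtain ⟨x, hx⟩ := solvableByRad_le_range hr hp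
    ((algebraMap N (AlgebraicClosure N)).comp ι) y hy
  exact ⟨ι x, hx⟩

omit [IsAlgClosed Ω] in
theorem mem_QS_of_mem [Algebra.IsAlgebraic L Ω] (N : IntermediateField L Ω) [CharZero N] (x : N)
    (hx : (x : Ω) ∈ solvableByRad ℚ Ω) : x ∈ QS N := by
  let ψ : Ω →ₐ[N] AlgebraicClosure N := IsAlgClosed.lift
  have h := map_mem_solvableByRad (ψ : Ω →+* AlgebraicClosure N) x hx
  rw [mem_QS, ← ψ.commutes x]
  exact h

omit [CharZero Ω] [IsAlgClosed Ω] in
/-- A field which is maximal among those without a `q`-th root of `a` is closed under `l`-th roots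
for `l < q`. -/
theorem exists_closed [Algebra.IsAlgebraic L Ω] (D : IntermediateField L Ω) {q l : ℕ}
    (hq : q.Prime) (hl : 0 < l) (hlq : l < q) {a : Ω} (ha : a ∈ D) (hD : ∀ z ∈ D, z ^ q ≠ a) :
    ∃ N : IntermediateField L Ω, D ≤ N ∧ (∀ z ∈ N, z ^ q ≠ a) ∧ ∀ b : Ω, b ^ l ∈ N → b ∈ N := by
  obtain ⟨N, hDN, hmax⟩ := zorn_le_nonempty₀
    {N : IntermediateField L Ω | ∀ z ∈ N, z ^ q ≠ a} (by
      intro c hc hchain y hy
      refine ⟨sSup c, ?_, fun z hz => le_sSup hz⟩
      intro z hz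
      have hne : Nonempty c := ⟨⟨y, hy⟩⟩
      rw [sSup_eq_iSup'] at hz
      have hdir : Directed (· ≤ ·) (fun N : c => (N : IntermediateField L Ω)) :=
        hchain.directedOn.directed_val
      have hz' : z ∈ ((⨆ N : c, (N : IntermediateField L Ω) : IntermediateField L Ω) : Set Ω) := hz
      rw [IntermediateField.coe_iSup_of_directed hdir] at hz'
      obtain ⟨N, hN⟩ := Set.mem_iUnion.1 hz'
      exact hc N.2 z hN) D hD
  refine ⟨N, hDN, hmax.prop, fun b hb => ?_⟩
  by_contra hbN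
  have hint : IsIntegral N b := Algebra.IsIntegral.isIntegral b
  have hfd : FiniteDimensional N N⟮b⟯ := adjoin.finiteDimensional hint
  have hle : N ≤ (N⟮b⟯).restrictScalars L := fun x hx => (N⟮b⟯).algebraMap_mem ⟨x, hx⟩
  have hex : ∃ z ∈ (N⟮b⟯).restrictScalars L, z ^ q = a := by
    by_contra hcon
    push Not at hcon
    exact hbN (hmax.le_of_ge hcon hle (mem_adjoin_simple_self N b))
  obtain ⟨z, hz, hzq⟩ := hex
  have h1 : Module.finrank N N⟮b⟯ ≤ l := by
    rw [adjoin.finrank hint]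
    have h2 : (minpoly N b).degree ≤ (X ^ l - C (⟨b ^ l, hb⟩ : N)).degree :=
      minpoly.min N b (monic_X_pow_sub_C _ hl.ne') (by simp)
    rw [degree_X_pow_sub_C hl] at h2
    exact natDegree_le_iff_degree_le.2 h2
  have hirr : Irreducible (X ^ q - C (⟨a, hDN ha⟩ : N)) :=
    X_pow_sub_C_irreducible_of_prime hq fun y hy =>
      hmax.prop y y.2 (congrArg Subtype.val hy)
  set z' : N⟮b⟯ := ⟨z, hz⟩ with hz'
  have h3 : X ^ q - C (⟨a, hDN ha⟩ : N) = minpoly N z' :=
    minpoly.eq_of_irreducible_of_monic hirr (by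
      apply Subtype.ext
      simp only [map_sub, map_pow, aeval_X, aeval_C]
      exact sub_eq_zero.2 hzq) (monic_X_pow_sub_C _ hq.ne_zero)
  have h4 := minpoly.natDegree_le (A := N) z'
  rw [← h3, natDegree_X_pow_sub_C] at h4
  omega

omit [CharZero Ω] in
theorem isGalois_of_map [Algebra.IsAlgebraic L Ω] [CharZero L] (N : IntermediateField L Ω)
    (h : ∀ s : Ω ≃ₐ[L] Ω, ∀ x ∈ N, s x ∈ N) : IsGalois L N := by
  have hnorm : Normal L Ω := ⟨fun x => IsAlgClosed.splits _⟩
  have hN : Normal L N := by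
    refine IntermediateField.normal_iff_forall_map_le'.2 ?_
    rintro s _ ⟨x, hx, rfl⟩
    exact h s x hx
  exact ⟨⟩

end

/-- The compositum of the maximal solvable extension of `ℚ` and a quintic field. -/
theorem exists_example (Ω : Type) [Field Ω] [CharZero Ω] [IsAlgClosed Ω]
    [Algebra.IsAlgebraic ℚ Ω] : ∃ (L : IntermediateField ℚ Ω) (_ : NumberField L)
    (D : IntermediateField L Ω) (_ : CharZero D) (_ : IsGalois L D),
    (∀ y ∈ solvableByRad ℚ Ω, y ∈ D) ∧
    (∀ s : Ω ≃ₐ[L] Ω, ∀ x ∈ D, s x ∈ D) ∧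
    IsEmpty (D →+* QS D) ∧
    ∃ (F₁ : IntermediateField ℚ (QS D)) (_ : NumberField F₁) (_ : IsGalois F₁ (QS D))
      (α : (QS D ≃ₐ[F₁] QS D) →* (D ≃ₐ[L] D)), Continuous α ∧ Function.Bijective α := by
  obtain ⟨x, hx⟩ := IsAlgClosed.exists_root (Phi Ω) (by simp [degree_Phi])
  have hx' : x ^ 5 - 4 * x + 2 = 0 := by
    rw [← aeval_Phi (R := Ω) x]
    exact hx
  let L : IntermediateField ℚ Ω := ℚ⟮x⟯
  have hfd : FiniteDimensional ℚ L := adjoin.finiteDimensional (Algebra.IsIntegral.isIntegral x)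
  have hNF : NumberField L := NumberField.of_module_finite ℚ L
  let D : IntermediateField L Ω :=
    IntermediateField.adjoin L (solvableByRad ℚ Ω : Set Ω)
  have hc : CharZero D := charZero_of_injective_algebraMap (algebraMap L D).injective
  have hR : ∀ y ∈ solvableByRad ℚ Ω, y ∈ D := fun y hy =>
    IntermediateField.subset_adjoin L _ hy
  have hmap : ∀ s : Ω ≃ₐ[L] Ω, ∀ x ∈ D, s x ∈ D := by
    intro s
    have h1 : D ≤ D.comap (s : Ω →ₐ[L] Ω) := by
      rw [IntermediateField.adjoin_le_iff]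
      intro y hy
      exact hR _ (map_mem_solvableByRad (s : Ω →+* Ω) y hy)
    exact h1
  have hgal : IsGalois L D := isGalois_of_map D hmap
  have hQS : HasQS D := hasQS_of_le D hR
  refine ⟨L, hNF, D, hc, hgal, hR, hmap, ⟨fun j => ?_⟩, exists_section L D hQS ?_⟩
  · let x' : D := algebraMap L D ⟨x, mem_adjoin_simple_self ℚ x⟩
    have h1 : x' ^ 5 - 4 * x' + 2 = 0 := by
      apply (algebraMap D Ω).injective
      rw [map_add, map_sub, map_mul, map_pow, map_ofNat, map_ofNat, map_zero]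
      exact hx'
    let φ : D →+* AlgebraicClosure D :=
      ((algebraMap D (AlgebraicClosure D)).comp (algebraMap (QS D) D)).comp j
    refine not_mem_solvableByRad (φ x') ?_ (j x').2
    have h2 := congrArg φ h1
    rwa [map_add, map_sub, map_mul, map_pow, map_ofNat, map_ofNat, map_zero] at h2
  · intro g hg
    apply AlgEquiv.coe_toAlgHom_injective
    refine IntermediateField.adjoin_algHom_ext L fun y hy => ?_
    exact hg _ (mem_QS_of_mem D _ hy)

theorem exists_algClosure : ∃ (Ω : Type) (_ : Field Ω) (_ : CharZero Ω) (_ : IsAlgClosed Ω),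
    Algebra.IsAlgebraic ℚ Ω := by
  refine ⟨AlgebraicClosure ℚ, inferInstance, inferInstance, inferInstance, ?_⟩
  have h : (DivisionRing.toRatAlgebra : Algebra ℚ (AlgebraicClosure ℚ)) =
      AlgebraicClosure.instAlgebra ℚ := Subsingleton.elim _ _
  rw [h]
  exact AlgebraicClosure.isAlgebraic ℚ

/-- The condition on roots cannot be dropped. -/
theorem sharp : ∃ (F₁ E₁ F₂ E₂ : Type) (_ : Field F₁) (_ : NumberField F₁) (_ : Field E₁)
    (_ : Algebra F₁ E₁) (_ : IsGalois F₁ E₁) (_ : Field F₂) (_ : NumberField F₂) (_ : Field E₂)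
    (_ : Algebra F₂ E₂) (_ : IsGalois F₂ E₂), SolvablyClosed E₁ ∧
    (∃ S : Subfield E₂, SolvablyClosed S) ∧ IsEmpty (E₂ →+* E₁) ∧
    ∃ α : (E₁ ≃ₐ[F₁] E₁) →* (E₂ ≃ₐ[F₂] E₂), Continuous α ∧ Function.Bijective α := by
  obtain ⟨Ω, _, _, _, _⟩ := exists_algClosure
  obtain ⟨L, hL, D, hc, hgal, hR, -, hemp, F₁, hF₁, hgal₁, α, hα⟩ := exists_example Ω
  have hQS : HasQS D := hasQS_of_le D hR
  exact ⟨F₁, QS D, L, D, inferInstance, hF₁, inferInstance, inferInstance, hgal₁, inferInstance,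
    hL, inferInstance, inferInstance, hgal, hQS.solvablyClosed, hQS.exists_subfield, hemp, α, hα⟩

/-- Fields which contain a solvably closed subfield, are closed under `l`-th roots and are not
solvably closed. -/
theorem larger (l : ℕ) (hl : 0 < l) : ∃ (F E : Type) (_ : Field F) (_ : NumberField F)
    (_ : Field E) (_ : Algebra F E) (_ : IsGalois F E), (∃ S : Subfield E, SolvablyClosed S) ∧
    (∀ x : E, ∃ y : E, y ^ l = x) ∧ ¬ SolvablyClosed E := by
  obtain ⟨Ω, _, _, _, _⟩ := exists_algClosure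
  obtain ⟨L, hL, D, hc, hgal, hR, hmap, hemp, F₁, hF₁, hgal₁, α, hα, hbij⟩ := exists_example Ω
  have hQS : HasQS D := hasQS_of_le D hR
  obtain ⟨q, hlq, hq⟩ := Nat.exists_infinite_primes (l + 2)
  have hno : ¬ ∀ x : D, ∃ y : D, y ^ q = x := by
    intro hroot
    obtain ⟨j, -⟩ := wide hq (by omega) hQS hroot α hα (by
      rw [hbij.2.range_eq]
      exact isOpen_univ)
    exact hemp.false j
  push Not at hno
  obtain ⟨a, ha⟩ := hno
  obtain ⟨N, hDN, hN, hNl⟩ := exists_closed D hq hl (by omega) a.2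
    (fun z hz h => ha ⟨z, hz⟩ (Subtype.ext h))
  let M : IntermediateField L Ω :=
    sInf {N | D ≤ N ∧ ∀ b : Ω, b ^ l ∈ N → b ∈ N}
  have hDM : D ≤ M := le_sInf fun N hN => hN.1
  have hMN : M ≤ N := sInf_le ⟨hDN, hNl⟩
  have hMl : ∀ b : Ω, b ^ l ∈ M → b ∈ M := by
    intro b hb
    rw [IntermediateField.mem_sInf] at hb ⊢
    exact fun N hN => hN.2 b (hb N hN)
  have hc' : CharZero M := charZero_of_injective_algebraMap (algebraMap L M).injective
  have hgalM : IsGalois L M := by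
    refine isGalois_of_map M fun s x hx => ?_
    rw [IntermediateField.mem_sInf]
    intro N hN
    have h1 : M ≤ N.comap (s : Ω →ₐ[L] Ω) := by
      refine sInf_le ⟨fun y hy => hN.1 (hmap s y hy), fun b hb => hN.2 (s b) ?_⟩
      rw [← map_pow]
      exact hb
    exact h1 hx
  have hQM : HasQS M := hasQS_of_le M fun y hy => hDM (hR y hy)
  refine ⟨L, M, inferInstance, hL, inferInstance, inferInstance, hgalM, hQM.exists_subfield,
    fun x => ?_, fun hs => ?_⟩
  · obtain ⟨z, hz⟩ := IsAlgClosed.exists_pow_nat_eq (x : Ω) hl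
    exact ⟨⟨z, hMl z (by rw [hz]; exact x.2)⟩, Subtype.ext hz⟩
  · obtain ⟨y, hy⟩ := hs.exists_root q hq.pos ⟨a, hDM a.2⟩
    exact hN y (hMN y.2) (congrArg Subtype.val hy)

end Vale.Agent.N024
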