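import Vale.Agent.P024.H358.Closed
import Vale.Agent.P024.H358.RedAll
import Vale.Agent.P024.ALL.Goal1
import Vale.Agent.P024.ALL.H95.F2
import Vale.Agent.P024.H558.ALL.TH
import Vale.Agent.P024.H903.D1b

/-!
Open homomorphisms to the Galois groups of fields which contain a solvably closed subfield and are
closed under the extraction of `l`-th roots for a single odd prime `l`.
-/

namespace Vale.Agent.N024

open Vale.Agent.P024 Vale.Agent.P024.H358 Vale.Agent.P024.H358.Red
open scoped Topology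

/-- `E` contains all elements of its algebraic closure which are solvable by radicals over `ℚ`. -/
def HasQS (E : Type*) [Field E] [CharZero E] : Prop :=
  ∀ y ∈ solvableByRad ℚ (AlgebraicClosure E), ∃ x : E, algebraMap E (AlgebraicClosure E) x = y

theorem solvableByRad_le_range {S Ω : Type*} [Field S] [CharZero S] [Field Ω] [CharZero Ω]
    (hr : ∀ n : ℕ, 0 < n → ∃ z : S, IsPrimitiveRoot z n)
    (hp : ∀ n : ℕ, 0 < n → ∀ x : S, ∃ y : S, y ^ n = x) (φ : S →+* Ω) :
    ∀ y ∈ solvableByRad ℚ Ω, ∃ x : S, φ x = y := by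
  have h : solvableByRad ℚ Ω ≤ φ.toRatAlgHom.fieldRange := by
    refine solvableByRad_le fun y n hn hy => ?_
    obtain ⟨x, hx⟩ := hy
    obtain ⟨z, hz⟩ := hp n (Nat.pos_of_ne_zero hn) x
    obtain ⟨ζ, hζ⟩ := hr n (Nat.pos_of_ne_zero hn)
    have _ : NeZero n := ⟨hn⟩
    by_cases hy0 : y = 0
    · subst hy0
      exact zero_mem _
    have hx' : φ x = y ^ n := hx
    have hz0 : φ z ≠ 0 := by
      intro h0
      apply hy0
      have h1 : y ^ n = 0 := by
        rw [← hx', ← hz, map_pow, h0, zero_pow hn]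
      exact (pow_eq_zero_iff hn).1 h1
    have hζ' : IsPrimitiveRoot (φ ζ) n := hζ.map_of_injective φ.injective
    obtain ⟨i, -, hi⟩ := hζ'.eq_pow_of_pow_eq_one (ξ := y / φ z) (by
      rw [div_pow, ← hx', ← hz, map_pow]
      exact div_self (pow_ne_zero n hz0))
    refine ⟨ζ ^ i * z, ?_⟩
    show φ (ζ ^ i * z) = y
    rw [map_mul, map_pow, hi, div_mul_cancel₀ _ hz0]
  intro y hy
  exact h hy

theorem hasQS_of_subfield {E : Type*} [Field E] [CharZero E] (S : Subfield E)
    (hS : SolvablyClosed S) : HasQS E := by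
  intro y hy
  obtain ⟨x, hx⟩ := solvableByRad_le_range (fun n hn => hS.exists_primitiveRoot n hn)
    (fun n hn x => hS.exists_root n hn x)
    ((algebraMap E (AlgebraicClosure E)).comp S.subtype) y hy
  exact ⟨x, hx⟩

section

variable {E : Type*} [Field E] [CharZero E]

theorem HasQS.exists_root (h : HasQS E) (n : ℕ) (hn : 0 < n) (x : QS E) :
    ∃ y : QS E, y ^ n = x := by
  obtain ⟨z, hz⟩ := IsAlgClosed.exists_pow_nat_eq (algebraMap E (AlgebraicClosure E) x) hn
  have hzm : z ∈ solvableByRad ℚ (AlgebraicClosure E) :=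
    solvableByRad.rad_mem hn.ne' (by rw [hz]; exact x.2)
  obtain ⟨y, hy⟩ := h z hzm
  refine ⟨⟨y, by rw [mem_QS, hy]; exact hzm⟩, Subtype.ext ?_⟩
  apply (algebraMap E (AlgebraicClosure E)).injective
  show algebraMap E (AlgebraicClosure E) (y ^ n) = _
  rw [map_pow, hy, hz]

theorem HasQS.exists_primitiveRoot (h : HasQS E) (n : ℕ) (hn : 0 < n) :
    ∃ z : E, IsPrimitiveRoot z n := by
  have hnz : NeZero n := ⟨hn.ne'⟩
  have hcz : CharZero (AlgebraicClosure E) :=
    charZero_of_injective_algebraMap (algebraMap E (AlgebraicClosure E)).injective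
  have : NeZero ((n : ℕ) : AlgebraicClosure E) := ⟨Nat.cast_ne_zero.2 hn.ne'⟩
  obtain ⟨ζ, hζ⟩ := HasEnoughRootsOfUnity.exists_primitiveRoot (AlgebraicClosure E) n
  have hzm : ζ ∈ solvableByRad ℚ (AlgebraicClosure E) :=
    solvableByRad.rad_mem hn.ne' (by rw [hζ.pow_eq_one]; exact one_mem _)
  obtain ⟨y, hy⟩ := h ζ hzm
  refine ⟨y, IsPrimitiveRoot.of_map_of_injective (f := algebraMap E (AlgebraicClosure E)) ?_
    (algebraMap E (AlgebraicClosure E)).injective⟩
  rwa [hy]

theorem HasQS.solvablyClosed (h : HasQS E) : SolvablyClosed (QS E) := by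
  refine solvablyClosed_of_root ?_ h.exists_root
  intro n hn
  obtain ⟨z, hz⟩ := h.exists_primitiveRoot n hn
  refine ⟨⟨z, root_mem_QS n hn z (by rw [hz.pow_eq_one]; exact one_mem _)⟩, ?_⟩
  exact IsPrimitiveRoot.of_map_of_injective (f := algebraMap (QS E) E) hz
    (algebraMap (QS E) E).injective

theorem HasQS.isGalois [Algebra.IsAlgebraic ℚ E] (h : HasQS E) : IsGalois ℚ (QS E) := by
  have halg : Algebra.IsAlgebraic ℚ (AlgebraicClosure E) :=
    Algebra.IsAlgebraic.trans ℚ E (AlgebraicClosure E)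
  have hnorm : Normal ℚ (AlgebraicClosure E) := ⟨fun x => IsAlgClosed.splits _⟩
  have hR : Normal ℚ (solvableByRad ℚ (AlgebraicClosure E)) := by
    refine IntermediateField.normal_iff_forall_map_le'.2 ?_
    rintro s _ ⟨x, hx, rfl⟩
    exact map_solvableByRad s x hx
  let f : QS E →+* solvableByRad ℚ (AlgebraicClosure E) :=
    ((algebraMap E (AlgebraicClosure E)).comp (algebraMap (QS E) E)).codRestrict
      (solvableByRad ℚ (AlgebraicClosure E)) fun x => x.2
  have hf : Function.Bijective f := by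
    refine ⟨f.injective, fun y => ?_⟩
    obtain ⟨x, hxy⟩ := h y y.2
    exact ⟨⟨x, by rw [mem_QS, hxy]; exact y.2⟩, Subtype.ext hxy⟩
  have := Normal.of_algEquiv (AlgEquiv.ofBijective f.toRatAlgHom hf).symm
  exact ⟨⟩

end

universe u v

/-- Compatibility with the cyclotomic characters. -/
theorem compat {F₁ F₂ : Type*} {E₁ : Type u} {E₂ : Type v}
    [Field F₁] [NumberField F₁] [Field E₁] [Algebra F₁ E₁]
    [IsGalois F₁ E₁] [Field F₂] [NumberField F₂] [Field E₂] [CharZero E₂] [Algebra F₂ E₂]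
    [IsGalois F₂ E₂]
    (hr₁ : ∀ n : ℕ, 0 < n → ∃ z : E₁, IsPrimitiveRoot z n) (hE₂ : HasQS E₂)
    (α : (E₁ ≃ₐ[F₁] E₁) →* (E₂ ≃ₐ[F₂] E₂))
    (hα : Continuous α) (hopen : IsOpen (Set.range α)) : CyclotomicCompatible α := by
  intro g n k hn hg z hz
  have hM : ALL.PropGOAL.{u, v} := ALL.goal_of3 H558.ALL.propTH H903.propD1 ALL.H95.propF
  have hc₁ : CharZero E₁ := charZero_of_injective_algebraMap (algebraMap F₁ E₁).injective
  have halg₁ : Algebra.IsAlgebraic ℚ E₁ := Algebra.IsAlgebraic.trans ℚ F₁ E₁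
  have halg₂ : Algebra.IsAlgebraic ℚ E₂ := Algebra.IsAlgebraic.trans ℚ F₂ E₂
  have halgΩ : Algebra.IsAlgebraic ℚ (AlgebraicClosure E₁) :=
    Algebra.IsAlgebraic.trans ℚ E₁ (AlgebraicClosure E₁)
  have hgal := hE₂.isGalois
  have hNF : NumberField (im F₁ E₁) := NumberField.of_ringEquiv F₁ (im F₁ E₁) (imEquiv F₁ E₁)
  have hres1 : Continuous (res1 F₁ E₁) :=
    continuous_of_res (algebraMap E₁ (AlgebraicClosure E₁)) (res1 F₁ E₁) (res1_apply F₁ E₁)
  have hresQ : Continuous (resQ F₂ E₂) :=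
    continuous_of_res (algebraMap (QS E₂) E₂) (resQ F₂ E₂) (resQ_apply F₂ E₂)
  obtain ⟨j, hj⟩ := hM (AlgebraicClosure E₁) (QS E₂) hE₂.solvablyClosed (im F₁ E₁)
    (((resQ F₂ E₂).comp α).comp (res1 F₁ E₁)) ((hresQ.comp hα).comp hres1) (by
      rw [MonoidHom.coe_comp, (res1_surjective F₁ E₁).range_comp]
      exact isOpen_range_resQ α hα hopen)
  obtain ⟨g', rfl⟩ := res1_surjective F₁ E₁ g
  set y : QS E₂ := ⟨z, root_mem_QS n hn z (by rw [hz]; exact one_mem _)⟩ with hy
  have hyn : y ^ n = 1 := Subtype.ext hz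
  obtain ⟨ξ, hξ⟩ := hr₁ n hn
  have _ : NeZero n := ⟨hn.ne'⟩
  have hξ' : IsPrimitiveRoot (algebraMap E₁ (AlgebraicClosure E₁) ξ) n :=
    hξ.map_of_injective (algebraMap E₁ (AlgebraicClosure E₁)).injective
  obtain ⟨i, -, hi⟩ := hξ'.eq_pow_of_pow_eq_one (ξ := j y) (by rw [← map_pow, hyn, map_one])
  have h1 : g' (j y) = (j y) ^ k := by
    rw [← hi, ← map_pow, ← res1_apply, hg (ξ ^ i) (by
      rw [← pow_mul, mul_comm, pow_mul, hξ.pow_eq_one, one_pow]), map_pow]
  rw [hj, ← map_pow] at h1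
  have h2 := j.injective h1
  have h3 := congrArg (fun t : QS E₂ => (t : E₂)) h2
  have h4 := resQ_apply F₂ E₂ (α (res1 F₁ E₁ g')) y
  exact h4.symm.trans h3

/-- The homomorphism theorem for an arbitrary Galois extension `E₁` and a field `E₂` which contains
the maximal solvable extension of `ℚ` and is closed under `l`-th roots. -/
theorem wide {F₁ F₂ : Type*} {E₁ : Type u} {E₂ : Type v}
    [Field F₁] [NumberField F₁] [Field E₁] [Algebra F₁ E₁]
    [IsGalois F₁ E₁] [Field F₂] [NumberField F₂] [Field E₂] [CharZero E₂] [Algebra F₂ E₂]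
    [IsGalois F₂ E₂] {l : ℕ} (hl : l.Prime) (hl2 : l ≠ 2)
    (hE₂ : HasQS E₂) (hroot : ∀ x : E₂, ∃ y : E₂, y ^ l = x)
    (α : (E₁ ≃ₐ[F₁] E₁) →* (E₂ ≃ₐ[F₂] E₂))
    (hα : Continuous α) (hopen : IsOpen (Set.range α)) :
    ∃! j : E₂ →+* E₁, ∀ (g : E₁ ≃ₐ[F₁] E₁) (x : E₂), g (j x) = j ((α g) x) := by
  have hc₁ : CharZero E₁ := charZero_of_injective_algebraMap (algebraMap F₁ E₁).injective
  have hcF : CharZero F₁ := inferInstance
  have hcΩ : CharZero (AlgebraicClosure E₁) :=
    charZero_of_injective_algebraMap (algebraMap E₁ (AlgebraicClosure E₁)).injective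
  have halg : Algebra.IsAlgebraic F₁ (AlgebraicClosure E₁) :=
    Algebra.IsAlgebraic.trans F₁ E₁ (AlgebraicClosure E₁)
  have hnorm : Normal F₁ (AlgebraicClosure E₁) := ⟨fun x => IsAlgClosed.splits _⟩
  have hgal : IsGalois F₁ (AlgebraicClosure E₁) := ⟨⟩
  have hgalE : IsGalois E₁ (AlgebraicClosure E₁) := inferInstance
  set r : (AlgebraicClosure E₁ ≃ₐ[F₁] AlgebraicClosure E₁) →* (E₁ ≃ₐ[F₁] E₁) :=
    AlgEquiv.restrictNormalHom E₁ with hr
  have hrc : ∀ g x, algebraMap E₁ (AlgebraicClosure E₁) (r g x) =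
      g (algebraMap E₁ (AlgebraicClosure E₁) x) := fun g x =>
    AlgEquiv.restrictNormal_commutes g E₁ x
  have hcont : Continuous r :=
    continuous_of_res (algebraMap E₁ (AlgebraicClosure E₁)) r hrc
  have hsurj : Function.Surjective r := AlgEquiv.restrictNormalHom_surjective _
  have hopen' : IsOpen (Set.range (α.comp r)) := by
    rw [MonoidHom.coe_comp, hsurj.range_comp]
    exact hopen
  have hr₁ : ∀ n : ℕ, 0 < n → ∃ z : AlgebraicClosure E₁, IsPrimitiveRoot z n := by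
    intro n hn
    have hnz : NeZero n := ⟨hn.ne'⟩
    have : NeZero ((n : ℕ) : AlgebraicClosure E₁) := ⟨Nat.cast_ne_zero.2 hn.ne'⟩
    exact HasEnoughRootsOfUnity.exists_primitiveRoot (AlgebraicClosure E₁) n
  have h3 := roots_main hl hl2 (E₁ := AlgebraicClosure E₁) (E₂ := E₂)
    ⟨hr₁ l hl.pos, fun x => IsAlgClosed.exists_pow_nat_eq x hl.pos⟩
    ⟨hE₂.exists_primitiveRoot l hl.pos, hroot⟩ hr₁ hE₂.exists_primitiveRoot (α.comp r)
    (hα.comp hcont) ample_univ
  obtain ⟨j, hj, huniq⟩ := (h3.1.out 1 0).1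
    (compat hr₁ hE₂ (α.comp r) (hα.comp hcont) hopen')
  have hmem : ∀ x : E₂, ∃ y : E₁, algebraMap E₁ (AlgebraicClosure E₁) y = j x := by
    intro x
    have h1 : ∀ g : AlgebraicClosure E₁ ≃ₐ[E₁] AlgebraicClosure E₁, g (j x) = j x := by
      intro g
      have h2 := hj (g.restrictScalars F₁) x
      have h3 : r (g.restrictScalars F₁) = 1 := by
        ext y
        apply (algebraMap E₁ (AlgebraicClosure E₁)).injective
        rw [hrc]
        exact g.commutes y
      rw [MonoidHom.comp_apply, h3, map_one] at h2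
      exact h2
    have h4 := (InfiniteGalois.mem_bot_iff_fixed (k := E₁) (K := AlgebraicClosure E₁) (j x)).2 h1
    exact IntermediateField.mem_bot.1 h4
  let e : E₁ ≃+* (algebraMap E₁ (AlgebraicClosure E₁)).range :=
    RingEquiv.ofBijective (algebraMap E₁ (AlgebraicClosure E₁)).rangeRestrict
      ⟨RingHom.injective _, (algebraMap E₁ (AlgebraicClosure E₁)).rangeRestrict_surjective⟩
  let j₀ : E₂ →+* E₁ := (e.symm : (algebraMap E₁ (AlgebraicClosure E₁)).range →+* E₁).comp
    (j.codRestrict (algebraMap E₁ (AlgebraicClosure E₁)).range hmem)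
  have hj₀ : ∀ x, algebraMap E₁ (AlgebraicClosure E₁) (j₀ x) = j x := by
    intro x
    have h1 : e (j₀ x) = j.codRestrict (algebraMap E₁ (AlgebraicClosure E₁)).range hmem x :=
      e.apply_symm_apply _
    exact congrArg Subtype.val h1
  refine ⟨j₀, ?_, ?_⟩
  · intro g x
    obtain ⟨g', rfl⟩ := hsurj g
    apply (algebraMap E₁ (AlgebraicClosure E₁)).injective
    rw [hrc, hj₀, hj₀, hj]
    rfl
  · intro j' hj'
    have h1 : (algebraMap E₁ (AlgebraicClosure E₁)).comp j' = j := by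
      refine huniq _ ?_
      intro g x
      show g (algebraMap E₁ (AlgebraicClosure E₁) (j' x)) = _
      rw [← hrc, hj']
      rfl
    ext x
    apply (algebraMap E₁ (AlgebraicClosure E₁)).injective
    rw [hj₀, ← h1]
    rfl

end Vale.Agent.N024
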